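import Vale.Agent.P091.Main

/-!
A.e. convergence of Fourier series on `L log L` is equivalent to the weak `L¹` estimate for the
maximal partial sum operator on `L log L`.
-/

open MeasureTheory Filter Vale.Agent.P091
open scoped ENNReal NNReal Topology

namespace Vale.Agent.Results.P091.ConvergenceIffWeakType

theorem result :
    [ (∀ f, InLLogL f → ∀ᵐ x ∂μ, Tendsto (fun N => S N f x) atTop (𝓝 (f x))),
      (∀ f, InLLogL f → ¬ ∀ᵐ x ∂μ, Smax f x = ∞),
      (∃ C : ℝ≥0, ∀ f, InLLogL f → ∀ r : ℝ, 0 < r →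
        μ {x | ENNReal.ofReal r < Smax f x} ≤ C * modular (fun x => f x / (r : ℂ))),
      (∃ C : ℝ≥0, ∀ f, InLLogL f → ∀ s : ℝ, 0 < s → modular (fun x => f x / (s : ℂ)) ≤ 1 →
        ∀ r : ℝ, 0 < r → μ {x | ENNReal.ofReal r < Smax f x} ≤ C * ENNReal.ofReal (s / r)),
      (∃ (K : ℝ≥0) (δ : ℝ≥0∞), δ < 1 ∧
        ∀ P, IsTrigPoly P → modular P ≤ 1 → μ {x | (K : ℝ≥0∞) < Smax P x} ≤ δ) ].TFAE :=
  convergence_tfae

end Vale.Agent.Results.P091.ConvergenceIffWeakType
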